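import Vale.Agent.P011Z.Core

/-!
The abstract theorem for a lattice in a single group.
-/

open Topology

namespace Vale.Agent.P011Z.FF.Lat

/-- Finitely many classes give a finite index. -/
theorem relIndex_ne_zero_of_class {G κ : Type} [Group G] [Finite κ] (H Γ : Subgroup G)
    (cl : G → κ) (h : ∀ a ∈ Γ, ∀ b ∈ Γ, cl a = cl b → a⁻¹ * b ∈ H) : H.relIndex Γ ≠ 0 := by
  refine Subgroup.index_ne_zero_iff_finite.2 ?_
  refine Finite.of_injective (fun q : Γ ⧸ H.subgroupOf Γ => cl ((q.out : Γ) : G)) fun a b hab => ?_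
  rw [← QuotientGroup.out_eq' a, ← QuotientGroup.out_eq' b]
  exact QuotientGroup.eq.2 (h _ a.out.2 _ b.out.2 hab)

theorem core_one {G B : Type} [Group G] [Group B] [TopologicalSpace B] [IsTopologicalGroup B]
    [T2Space B] [LocallyCompactSpace B] [SecondCountableTopology B] (d : G →* B)
    (hd : Function.Injective d) (Γ N : Subgroup G) (hN : N.Normal)
    (hdisc : ∀ K : Set B, IsCompact K → {γ : G | γ ∈ Γ ∧ d γ ∈ K}.Finite)
    (hcoc : ∃ C : Set B, IsCompact C ∧ ∀ b, ∃ γ ∈ Γ, b * d γ ∈ C)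
    (hdense : ∀ b, b ∈ closure (d '' (N : Set G)))
    (hcom : ∀ x ∈ N, (Γ.comap (MulAut.conj x).toMonoidHom).relIndex Γ ≠ 0)
    (U : Subgroup B) (hUc : IsCompact (U : Set B)) (hUo : IsOpen (U : Set B))
    (hT : HasT (⊤ : Subgroup B)) :
    ∃ F : Set G, F.Finite ∧ ∀ γ ∈ Γ, ∃ x ∈ F, x⁻¹ * γ ∈ N := by
  have : IsTopologicalGroup PUnit.{1} :=
    { continuous_mul := continuous_of_discreteTopology
      continuous_inv := continuous_of_discreteTopology }
  let e : G →* PUnit.{1} × B := (MonoidHom.inr PUnit.{1} B).comp d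
  have he2 : ∀ γ, (e γ).2 = d γ := fun _ => rfl
  have he : Function.Injective e := fun a b hab => hd (by rw [← he2, ← he2, hab])
  have : DiscreteTopology (Γ.map e) := by
    refine discreteTopology_of_isOpen_singleton_one ?_
    obtain ⟨K, hK, hK1⟩ := exists_compact_mem_nhds (1 : B)
    have hc : Continuous fun γ : Γ.map e => (γ : PUnit.{1} × B).2 :=
      continuous_snd.comp continuous_subtype_val
    refine isOpen_singleton_of_finite_mem_nhds 1 (hc.continuousAt.preimage_mem_nhds hK1) ?_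
    refine Set.Finite.of_finite_image (f := fun γ : Γ.map e => (γ : PUnit.{1} × B))
      (((hdisc K hK).image e).subset ?_) Subtype.val_injective.injOn
    rintro _ ⟨⟨_, γ, hγ, rfl⟩, h, rfl⟩
    exact ⟨γ, ⟨hγ, h⟩, rfl⟩
  have hc : Coc (Γ.map e) := by
    obtain ⟨C, hC, h⟩ := hcoc
    refine ⟨Set.univ ×ˢ C⁻¹, isCompact_univ.prod hC.inv, fun g => ?_⟩
    obtain ⟨γ, hγ, h1⟩ := h g.2⁻¹
    refine ⟨e γ, ⟨γ, hγ, rfl⟩, (e γ)⁻¹ * g, ⟨trivial, ?_⟩, by group⟩
    rw [Set.mem_inv]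
    simpa [he2] using h1
  have hcl : (N.map e).topologicalClosure = ⊤ := by
    rw [eq_top_iff]
    intro g _
    have h1 : Continuous fun b : B => ((1 : PUnit.{1}), b) := Continuous.prodMk_right 1
    have h2 := image_closure_subset_closure_image h1 ⟨g.2, hdense g.2, rfl⟩
    rw [← Set.image_comp] at h2
    exact h2
  obtain ⟨F, hF⟩ := core (Γ.map e) (N.map e) hc (by rw [hcl]; infer_instance)
    (by
      rintro _ ⟨γ, -, rfl⟩ _ ⟨x, hx, rfl⟩
      exact ⟨γ * x * γ⁻¹, hN.conj_mem x hx γ, by simp⟩)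
    (by
      rintro _ ⟨x, hx, rfl⟩ h0
      refine hcom x hx ?_
      rw [← Subgroup.relIndex_map_map_of_injective _ _ he]
      refine Subgroup.relIndex_eq_zero_of_le_left ?_ h0
      rintro _ ⟨γ, hγ, rfl⟩
      exact ⟨x * γ * x⁻¹, hγ, by simp⟩)
    ⊤ U le_top hUc hUo hT isCompact_univ
  refine ⟨e ⁻¹' (F : Set (PUnit.{1} × B)), F.finite_toSet.preimage he.injOn, fun γ hγ => ?_⟩
  obtain ⟨f, hf, y, hy, h⟩ := hF (e γ) ⟨γ, hγ, rfl⟩ trivial trivial
  refine ⟨γ * y⁻¹, ?_, by simpa using hy⟩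
  have h1 : e (γ * y⁻¹) = f := by
    rw [map_mul, map_inv, h]
    group
  rw [Set.mem_preimage, h1]
  exact hf

end Vale.Agent.P011Z.FF.Lat
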